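import Vale.Agent.P301.H862.Ell
import Mathlib.Topology.Algebra.LinearMapCompletion
import Mathlib.Analysis.InnerProductSpace.PiL2

/-!
# P301, ABS3: homogeneous almost orthonormal approximate kernel vectors
-/

open Filter Topology Module UniformSpace
open scoped InnerProductSpace
open Vale.Agent.P299.H863 Vale.Agent.P301.H862

noncomputable section

namespace Vale.Agent.P301.H103

variable {H : Type*} [NormedAddCommGroup H] [InnerProductSpace ℂ H]

theorem mem_skOn {D : H →ₗ[ℂ] H} {K : Submodule ℂ H} {x : Completion H} :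
    x ∈ skOn D K ↔ ∃ w : ℕ → H, (∀ n, w n ∈ K) ∧
    Tendsto (fun n => (w n : Completion H)) atTop (𝓝 x) ∧
      Tendsto (fun n => D (w n)) atTop (𝓝 0) := Iff.rfl

section grading

variable {A : Ell H} {d : ℕ} (G : A.Grading d)

theorem dg_oproj (p : ℕ) : OProj ℂ (G.dg p) := ⟨G.idem p, G.symm p⟩

/-- the projection as a continuous map -/
def dgL (p : ℕ) : H →L[ℂ] H :=
  (G.dg p).mkContinuous 1 fun u => by rw [one_mul]; exact (dg_oproj G p).norm_le u

theorem dgL_apply (p : ℕ) (u : H) : dgL G p u = G.dg p u := rfl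

theorem par_dg {p : ℕ} (hp : p ∈ Finset.range (d + 1)) (u : H) :
    A.par (G.dg p u) = (-1 : ℂ) ^ p • G.dg p u := by
  rw [G.par, Finset.sum_eq_single p]
  · rw [G.idem]
  · intro q _ hq
    rw [G.orth q p hq, smul_zero]
  · intro h; exact absurd hp h

theorem dg_par {p : ℕ} (hp : p ∈ Finset.range (d + 1)) (u : H) :
    G.dg p (A.par u) = (-1 : ℂ) ^ p • G.dg p u := by
  rw [G.par, map_sum, Finset.sum_eq_single p]
  · rw [map_smul, G.idem]
  · intro q _ hq
    rw [map_smul, G.orth p q (Ne.symm hq), smul_zero]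
  · intro h; exact absurd hp h

theorem coe_pow (p : ℕ) : ((((-1 : ℤˣ) ^ p : ℤˣ) : ℤ) : ℂ) = (-1 : ℂ) ^ p := by simp

theorem dg_mem_pt {p : ℕ} (hp : p ∈ Finset.range (d + 1)) {s : ℤˣ} (hs : (-1) ^ p = s) (u : H) :
    G.dg p u ∈ A.pt s := by
  show A.par _ = _
  rw [par_dg G hp, ← hs, coe_pow]

theorem dg_of_pt {p : ℕ} (hp : p ∈ Finset.range (d + 1)) {s : ℤˣ} (hs : (-1) ^ p ≠ s) {u : H}
    (hu : u ∈ A.pt s) : G.dg p u = 0 := by
  have h1 := dg_par G hp u
  rw [show A.par u = _ from hu, map_smul, ← coe_pow] at h1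
  have h2 : s = -(-1) ^ p := by
    rcases Int.units_eq_one_or s with h | h <;>
      rcases Int.units_eq_one_or ((-1 : ℤˣ) ^ p) with h' | h' <;> rw [h, h'] <;>
      first | rfl | (exact absurd (h'.trans h.symm) hs)
  rw [h2, Units.val_neg, Int.cast_neg, neg_smul, neg_eq_iff_add_eq_zero, ← two_smul ℂ,
    smul_smul, smul_eq_zero] at h1
  rcases h1 with h1 | h1
  · rw [coe_pow] at h1
    exact absurd h1 (mul_ne_zero two_ne_zero (pow_ne_zero _ (by norm_num)))
  · exact h1

/-- the degrees of parity `s` -/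
def dgs (d : ℕ) (s : ℤˣ) : Finset ℕ := (Finset.range (d + 1)).filter fun p => (-1 : ℤˣ) ^ p = s

theorem mem_dgs {d : ℕ} {s : ℤˣ} {p : ℕ} : p ∈ dgs d s ↔ p ∈ Finset.range (d + 1) ∧ (-1) ^ p = s :=
  Finset.mem_filter

theorem sum_dgs {s : ℤˣ} {u : H} (hu : u ∈ A.pt s) : ∑ p ∈ dgs d s, G.dg p u = u := by
  rw [dgs, Finset.sum_filter]
  conv_rhs => rw [← G.sum u]
  refine Finset.sum_congr rfl fun p hp => ?_
  split_ifs with h
  · rfl
  · exact (dg_of_pt G hp h hu).symm

/-- the strong kernel in degree `p` -/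
def skd (p : ℕ) : Submodule ℂ (Completion H) := skOn A.D (LinearMap.range (G.dg p))

theorem dg_of_mem {p : ℕ} {u : H} (hu : u ∈ LinearMap.range (G.dg p)) : G.dg p u = u := by
  obtain ⟨v, rfl⟩ := hu
  exact G.idem p v

theorem skd_le {p : ℕ} {s : ℤˣ} (hp : p ∈ dgs d s) : skd G p ≤ A.sk s := by
  rintro x ⟨w, h1, h2, h3⟩
  refine ⟨w, fun n => ?_, h2, h3⟩
  rw [← dg_of_mem G (h1 n)]
  exact dg_mem_pt G (mem_dgs.1 hp).1 (mem_dgs.1 hp).2 _

theorem dgL_sk {p : ℕ} {s : ℤˣ} (hp : p ∈ dgs d s) {x : Completion H} (hx : x ∈ A.sk s) :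
    (dgL G p).completion x ∈ skd G p := by
  obtain ⟨w, h1, h2, h3⟩ := hx
  refine ⟨fun n => G.dg p (w n), fun n => ⟨_, rfl⟩, ?_, ?_⟩
  · refine (((dgL G p).completion.continuous.tendsto x).comp h2).congr fun n => ?_
    exact ContinuousLinearMap.completion_apply_coe _ _
  · refine squeeze_zero_norm (fun n => ?_) (by simpa using h3.norm)
    refine le_of_sq_le_sq ?_ (norm_nonneg _)
    rw [G.norm_D (w n)]
    exact Finset.single_le_sum (f := fun p => ‖A.D (G.dg p (w n))‖ ^ 2)
      (fun _ _ => sq_nonneg _) (mem_dgs.1 hp).1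

theorem sum_dgL {s : ℤˣ} {x : Completion H} (hx : x ∈ A.sk s) :
    ∑ p ∈ dgs d s, (dgL G p).completion x = x := by
  obtain ⟨w, h1, h2, h3⟩ := hx
  have h4 : Tendsto (fun n => ∑ p ∈ dgs d s, (dgL G p).completion (w n : Completion H)) atTop
      (𝓝 (∑ p ∈ dgs d s, (dgL G p).completion x)) :=
    tendsto_finset_sum _ fun p _ => ((dgL G p).completion.continuous.tendsto x).comp h2
  refine tendsto_nhds_unique h4 (h2.congr fun n => ?_)
  conv_lhs => rw [← sum_dgs G (h1 n)]
  simp only [ContinuousLinearMap.completion_apply_coe, dgL_apply]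
  rw [← Completion.coe_toComplL (𝕜 := ℂ), map_sum]

theorem dgL_skd_same {p : ℕ} {x : Completion H} (hx : x ∈ skd G p) :
    (dgL G p).completion x = x := by
  obtain ⟨w, h1, h2, h3⟩ := hx
  refine tendsto_nhds_unique (((dgL G p).completion.continuous.tendsto x).comp h2)
    (h2.congr fun n => ?_)
  show ((w n : H) : Completion H) = (dgL G p).completion (w n : Completion H)
  rw [ContinuousLinearMap.completion_apply_coe, dgL_apply, dg_of_mem G (h1 n)]

theorem dgL_skd_ne {p q : ℕ} (hpq : q ≠ p) {x : Completion H} (hx : x ∈ skd G p) :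
    (dgL G q).completion x = 0 := by
  obtain ⟨w, h1, h2, h3⟩ := hx
  refine tendsto_nhds_unique (((dgL G q).completion.continuous.tendsto x).comp h2)
    (tendsto_const_nhds.congr fun n => ?_)
  show (0 : Completion H) = (dgL G q).completion (w n : Completion H)
  rw [ContinuousLinearMap.completion_apply_coe, dgL_apply, ← dg_of_mem G (h1 n), G.orth q p hpq,
    Completion.coe_zero]

/-- the decomposition of the strong kernel by degree -/
def skEquiv (s : ℤˣ) : A.sk s ≃ₗ[ℂ] (∀ p : dgs d s, skd G (p : ℕ)) where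
  toFun x p := ⟨(dgL G p).completion x, dgL_sk G p.2 x.2⟩
  map_add' x y := by
    ext p
    exact map_add _ _ _
  map_smul' c x := by
    ext p
    exact map_smul _ _ _
  invFun y := ⟨∑ p : dgs d s, ((y p : skd G (p : ℕ)) : Completion H), Submodule.sum_mem _ fun p _ =>
    skd_le G p.2 (y p).2⟩
  left_inv x := by
    refine Subtype.ext ?_
    show ∑ p : dgs d s, (dgL G p).completion (x : Completion H) = x
    rw [Finset.sum_coe_sort (dgs d s) fun p => (dgL G p).completion (x : Completion H)]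
    exact sum_dgL G x.2
  right_inv y := by
    funext q
    refine Subtype.ext ?_
    show (dgL G q).completion (∑ p : dgs d s, ((y p : skd G (p : ℕ)) : Completion H)) = y q
    rw [map_sum, Finset.sum_eq_single q]
    · exact dgL_skd_same G (y q).2
    · intro p _ hpq
      exact dgL_skd_ne G (fun h => hpq (Subtype.ext h.symm)) (y p).2
    · intro h; exact absurd (Finset.mem_univ q) h

end grading

/-- approximation of an orthonormal basis -/
theorem approx {D : H →ₗ[ℂ] H} {K : Submodule ℂ H} [FiniteDimensional ℂ (skOn D K)] {η : ℝ}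
    (hη : 0 < η) : ∃ g : Fin (finrank ℂ (skOn D K)) → H, (∀ a, g a ∈ K) ∧
      (∀ a b, ‖(inner ℂ (g a) (g b) : ℂ) - if a = b then 1 else 0‖ ≤ η) ∧
      ∀ a, ‖D (g a)‖ ^ 2 ≤ η := by
  let e := stdOrthonormalBasis ℂ (skOn D K)
  choose w h1 h2 h3 using fun a => mem_skOn.1 (e a).2
  have h4 : ∀ a b, ∀ᶠ n in atTop,
      ‖(inner ℂ (w a n) (w b n) : ℂ) - if a = b then 1 else 0‖ ≤ η := by
    intro a b
    have h5 : Tendsto (fun n => (inner ℂ (w a n) (w b n) : ℂ)) atTop
        (𝓝 (if a = b then 1 else 0)) := by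
      have h6 := (h2 a).inner (𝕜 := ℂ) (h2 b)
      have h7 : (inner ℂ ((e a : skOn D K) : Completion H) ((e b : skOn D K) : Completion H) : ℂ)
          = if a = b then 1 else 0 := by
        rw [← Submodule.coe_inner]
        exact orthonormal_iff_ite.1 e.orthonormal a b
      rw [h7] at h6
      refine h6.congr fun n => ?_
      exact Completion.inner_coe _ _
    have h8 := (tendsto_iff_norm_sub_tendsto_zero.1 h5).eventually (eventually_le_nhds hη)
    exact h8
  have h5 : ∀ a, ∀ᶠ n in atTop, ‖D (w a n)‖ ^ 2 ≤ η := by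
    intro a
    have h6 := (h3 a).norm.pow 2
    rw [norm_zero, zero_pow two_ne_zero] at h6
    exact h6.eventually (eventually_le_nhds hη)
  obtain ⟨n, hn1, hn2⟩ := ((eventually_all.2 fun a => eventually_all.2 (h4 a)).and
    (eventually_all.2 h5)).exists
  exact ⟨fun a => w a n, fun a => h1 a n, hn1, hn2⟩

/-- **Extraction.** -/
theorem extraction (A : Ell H) {d : ℕ} (G : A.Grading d) (s : ℤˣ) [FiniteDimensional ℂ (A.sk s)]
    {η : ℝ} (hη : 0 < η) : ∃ r : ℕ → ℕ,
      (∑ p ∈ Finset.range (d + 1), if ((-1) ^ p = s) then r p else 0) = finrank ℂ (A.sk s) ∧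
      ∀ p ∈ Finset.range (d + 1), (-1) ^ p = s → ∃ g : Fin (r p) → H,
        (∀ a, G.dg p (g a) = g a) ∧
        (∀ a b, ‖(inner ℂ (g a) (g b) : ℂ) - if a = b then 1 else 0‖ ≤ η) ∧
        ∀ a, ‖A.D (g a)‖ ^ 2 ≤ η := by
  have hf : ∀ p ∈ dgs d s, FiniteDimensional ℂ (skd G p) := fun p hp =>
    Submodule.finiteDimensional_of_le (skd_le G hp)
  refine ⟨fun p => finrank ℂ (skd G p), ?_, fun p hp hs => ?_⟩
  · have : ∀ p : dgs d s, Module.Finite ℂ (skd G (p : ℕ)) := fun p => hf p p.2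
    rw [(skEquiv G s).finrank_eq, Module.finrank_pi_fintype,
      Finset.sum_coe_sort (dgs d s) fun p => finrank ℂ (skd G p), dgs, Finset.sum_filter]
  · have : FiniteDimensional ℂ (skOn A.D (LinearMap.range (G.dg p))) := hf p (mem_dgs.2 ⟨hp, hs⟩)
    obtain ⟨g, h1, h2, h3⟩ := approx (D := A.D) (K := LinearMap.range (G.dg p)) hη
    exact ⟨g, fun a => dg_of_mem G (h1 a), h2, h3⟩

end Vale.Agent.P301.H103
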