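import Vale.Agent.P301.H862.Ell
import Mathlib.Topology.Algebra.LinearMapCompletion

/-!
# P301, ABS1: the index theorem for direct sums of elliptic operators
-/

open Filter Topology Module UniformSpace
open scoped InnerProductSpace
open Vale.Agent.P299.H863 Vale.Agent.P301.H862

noncomputable section

namespace Vale.Agent.P301.H103

variable {α : Type} [Fintype α] {H : α → Type} [∀ a, NormedAddCommGroup (H a)]
  [∀ a, InnerProductSpace ℂ (H a)]

/-- the direct sum of linear maps -/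
def lmap (f : ∀ a, H a →ₗ[ℂ] H a) : PiLp 2 H →ₗ[ℂ] PiLp 2 H where
  toFun u := WithLp.toLp 2 fun a => f a (u a)
  map_add' u v := by ext a; simp
  map_smul' c u := by ext a; simp

theorem lmap_apply (f : ∀ a, H a →ₗ[ℂ] H a) (u : PiLp 2 H) (a : α) : lmap f u a = f a (u a) := rfl

theorem nsq (u : PiLp 2 H) : ‖u‖ ^ 2 = ∑ a, ‖u a‖ ^ 2 := PiLp.norm_sq_eq_of_L2 H u

theorem norm_apply_le (u : PiLp 2 H) (a : α) : ‖u a‖ ≤ ‖u‖ := PiLp.norm_apply_le u a

theorem norm_le_of {u v : PiLp 2 H} {C : ℝ} (hC : 0 ≤ C) (h : ∀ a, ‖u a‖ ≤ C * ‖v a‖) :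
    ‖u‖ ≤ C * ‖v‖ := by
  refine le_of_sq_le_sq ?_ (by positivity)
  rw [nsq, mul_pow, nsq, Finset.mul_sum]
  refine Finset.sum_le_sum fun a _ => ?_
  rw [← mul_pow]
  exact pow_le_pow_left₀ (norm_nonneg _) (h a) 2

theorem inner_eq (u v : PiLp 2 H) : inner ℂ u v = ∑ a, inner ℂ (u a) (v a) :=
  PiLp.inner_apply u v

theorem tendsto_iff {ι : Type*} {l : Filter ι} {w : ι → PiLp 2 H} {u : PiLp 2 H} :
    Tendsto w l (𝓝 u) ↔ ∀ a, Tendsto (fun n => w n a) l (𝓝 (u a)) := by
  constructor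
  · intro h a
    exact ((PiLp.continuous_apply 2 H a).tendsto u).comp h
  · intro h
    have h1 : Tendsto (fun n => WithLp.ofLp (w n)) l (𝓝 (WithLp.ofLp u)) := tendsto_pi_nhds.2 h
    exact ((PiLp.continuous_toLp 2 H).tendsto _).comp h1

theorem totallyBounded_of {s : ∀ a, Set (H a)} (hs : ∀ a, TotallyBounded (s a))
    {S : Set (PiLp 2 H)} (h : ∀ u ∈ S, ∀ a, u a ∈ s a) : TotallyBounded S := by
  rw [totallyBounded_iff_ultrafilter]
  intro f hf
  have hu : IsUniformInducing (WithLp.ofLp : PiLp 2 H → ∀ a, H a) :=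
    (PiLp.uniformEquiv 2 H).isUniformInducing
  rw [← hu.cauchy_map_iff, cauchy_pi_iff']
  intro a
  rw [Filter.map_map]
  have h2 := (totallyBounded_iff_ultrafilter.1 (hs a)) (f.map fun u => u a) (by
    rw [Ultrafilter.coe_map, le_principal_iff, mem_map]
    exact mem_of_superset (le_principal_iff.1 hf) fun u hu => h u hu a)
  exact h2

theorem exists_bound {ι : Type*} [Finite ι] {Q : ι → ℝ → Prop} (hm : ∀ i C C', C ≤ C' → Q i C → Q i C')
    (h : ∀ i, ∃ C : ℝ, 0 ≤ C ∧ Q i C) : ∃ C : ℝ, 0 ≤ C ∧ ∀ i, Q i C := by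
  have := Fintype.ofFinite ι
  choose C hC0 hC using h
  refine ⟨∑ i, C i, Finset.sum_nonneg fun i _ => hC0 i, fun i => hm i _ _ ?_ (hC i)⟩
  exact Finset.single_le_sum (fun i _ => hC0 i) (Finset.mem_univ i)

theorem smoothing_lmap {J : ∀ a, ℕ → H a →ₗ[ℂ] H a} (hJ : ∀ a, Smoothing ℂ (J a)) :
    Smoothing ℂ (fun n => lmap fun a => J a n) where
  bound := by
    obtain ⟨C, hC0, hC⟩ := exists_bound (Q := fun a C => ∀ n s, ‖J a n s‖ ≤ C * ‖s‖)
      (fun a C C' h h1 n s => (h1 n s).trans (by gcongr)) (fun a => (hJ a).bound)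
    exact ⟨C, hC0, fun n s => norm_le_of hC0 fun a => hC a n (s a)⟩
  lim s := tendsto_iff.2 fun a => (hJ a).lim (s a)
  adj n t := by
    choose t' ht' using fun a => (hJ a).adj n (t a)
    refine ⟨WithLp.toLp 2 t', fun s => ?_⟩
    rw [inner_eq, inner_eq]
    exact Finset.sum_congr rfl fun a _ => ht' a (s a)

/-- a unit as a complex number -/
def uc (s : ℤˣ) : ℂ := ((s : ℤ) : ℂ)

theorem uc_mul (s t : ℤˣ) : uc (s * t) = uc s * uc t := by simp [uc]

theorem uc_mul_self (s : ℤˣ) : uc s * uc s = 1 := by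
  rw [← uc_mul, Int.units_mul_self]; simp [uc]

theorem uc_neg (s : ℤˣ) : uc (-s) = -uc s := by simp [uc]

theorem uc_one : uc 1 = 1 := by simp [uc]

theorem uc_conj (s : ℤˣ) : (starRingEnd ℂ) (uc s) = uc s := by simp [uc]

theorem norm_uc (s : ℤˣ) : ‖uc s‖ = 1 := by
  rcases Int.units_eq_one_or s with rfl | rfl <;> simp [uc]

/-- the total operator -/
def totD (A : ∀ a, Ell (H a)) (sg : α → ℤˣ) : PiLp 2 H →ₗ[ℂ] PiLp 2 H :=
  lmap fun a => uc (sg a) • (A a).D

/-- the total parity -/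
def totPar (A : ∀ a, Ell (H a)) (sg : α → ℤˣ) : PiLp 2 H →ₗ[ℂ] PiLp 2 H :=
  lmap fun a => uc (sg a) • (A a).par

variable (A : ∀ a, Ell (H a)) (sg : α → ℤˣ)

theorem totD_apply (u : PiLp 2 H) (a : α) : totD A sg u a = ((sg a : ℤ) : ℂ) • (A a).D (u a) := rfl

theorem totPar_apply (u : PiLp 2 H) (a : α) :
    totPar A sg u a = ((sg a : ℤ) : ℂ) • (A a).par (u a) := rfl

theorem totD_symm (u v : PiLp 2 H) : inner ℂ (totD A sg u) v = inner ℂ u (totD A sg v) := by
  rw [inner_eq, inner_eq]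
  refine Finset.sum_congr rfl fun a _ => ?_
  rw [totD_apply, totD_apply, inner_smul_left, inner_smul_right, (A a).symm]
  congr 1
  exact uc_conj (sg a)

theorem totPar_symm (u v : PiLp 2 H) : inner ℂ (totPar A sg u) v = inner ℂ u (totPar A sg v) := by
  rw [inner_eq, inner_eq]
  refine Finset.sum_congr rfl fun a _ => ?_
  rw [totPar_apply, totPar_apply, inner_smul_left, inner_smul_right, (A a).par_symm]
  congr 1
  exact uc_conj (sg a)

theorem totPar_sq (u : PiLp 2 H) : totPar A sg (totPar A sg u) = u := by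
  ext a
  rw [totPar_apply, totPar_apply, map_smul, (A a).par_sq, smul_smul]
  exact (congrArg (· • u a) (uc_mul_self (sg a))).trans (one_smul _ _)

theorem totD_par (u : PiLp 2 H) : totD A sg (totPar A sg u) = -totPar A sg (totD A sg u) := by
  ext a
  rw [totD_apply, totPar_apply, PiLp.neg_apply, totPar_apply, totD_apply, map_smul, map_smul,
    (A a).anti, smul_neg, smul_neg]

theorem norm_smul_uc {E : Type*} [NormedAddCommGroup E] [NormedSpace ℂ E] (s : ℤˣ) (x : E) :
    ‖((s : ℤ) : ℂ) • x‖ = ‖x‖ := by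
  rw [norm_smul]
  exact (congrArg (· * ‖x‖) (norm_uc s)).trans (one_mul _)

theorem totComm : SmoothingComm (totD A sg) (fun n => lmap fun a => (A a).J n)
    (fun n => lmap fun a => (A a).J n) where
  bdd n := by
    obtain ⟨C, hC0, hC⟩ := exists_bound (Q := fun a C => ∀ s, ‖(A a).D ((A a).J n s)‖ ≤ C * ‖s‖)
      (fun a C C' h h1 s => (h1 s).trans (by gcongr)) (fun a => (A a).comm.bdd n)
    refine ⟨C, hC0, fun s => norm_le_of hC0 fun a => ?_⟩
    rw [totD_apply, norm_smul_uc]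
    exact hC a (s a)
  comm := by
    obtain ⟨C, hC0, hC⟩ := exists_bound
      (Q := fun a C => ∀ n s, ‖(A a).D ((A a).J n s) - (A a).J n ((A a).D s)‖ ≤ C * ‖s‖)
      (fun a C C' h h1 n s => (h1 n s).trans (by gcongr)) (fun a => (A a).comm.comm)
    refine ⟨C, hC0, fun n s => norm_le_of hC0 fun a => ?_⟩
    rw [PiLp.sub_apply, totD_apply, lmap_apply, lmap_apply, totD_apply, map_smul, ← smul_sub,
      norm_smul_uc]
    exact hC a n (s a)
  lim s := by
    refine tendsto_iff.2 fun a => ?_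
    have h1 := ((A a).comm.lim (s a)).const_smul (((sg a : ℤ) : ℂ))
    rw [smul_zero] at h1
    refine h1.congr fun n => ?_
    rw [PiLp.sub_apply, totD_apply, lmap_apply, lmap_apply, totD_apply, map_smul, smul_sub]

/-- the projection to the vectors of total parity `s` -/
def prj (s : ℤˣ) : PiLp 2 H →ₗ[ℂ] PiLp 2 H :=
  (1 / 2 : ℂ) • (LinearMap.id + uc s • totPar A sg)

theorem prj_apply (s : ℤˣ) (u : PiLp 2 H) :
    prj A sg s u = (1 / 2 : ℂ) • (u + uc s • totPar A sg u) := rfl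

theorem totPar_prj (s : ℤˣ) (u : PiLp 2 H) : totPar A sg (prj A sg s u) = uc s • prj A sg s u := by
  rw [prj_apply, map_smul, map_add, map_smul, totPar_sq, smul_comm (uc s), smul_add (uc s),
    smul_smul (uc s) (uc s), uc_mul_self, one_smul, add_comm]

theorem prj_eq_iff (s : ℤˣ) (u : PiLp 2 H) : prj A sg s u = u ↔ totPar A sg u = uc s • u := by
  constructor
  · intro h
    rw [← h, totPar_prj]
  · intro h
    rw [prj_apply, h, smul_smul, uc_mul_self, one_smul, ← two_smul ℂ u, smul_smul]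
    norm_num

theorem prj_oproj (s : ℤˣ) : OProj ℂ (prj A sg s) where
  idem u := (prj_eq_iff A sg s _).2 (totPar_prj A sg s u)
  symm u v := by
    rw [prj_apply, prj_apply, inner_smul_left, inner_smul_right, inner_add_left, inner_add_right,
      inner_smul_left, inner_smul_right, totPar_symm, uc_conj]
    congr 1
    simp [map_ofNat]

theorem totD_prj (s : ℤˣ) (u : PiLp 2 H) :
    totD A sg (prj A sg s u) = prj A sg (-s) (totD A sg u) := by
  rw [prj_apply, prj_apply, map_smul, map_add, map_smul, totD_par, uc_neg, smul_neg, neg_smul]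

/-- the coordinate -/
def Ea (s : ℤˣ) (a : α) : fixP (prj A sg s) →L[ℂ] H a :=
  LinearMap.mkContinuous
    { toFun := fun u => (u : PiLp 2 H) a
      map_add' := fun u v => rfl
      map_smul' := fun c u => rfl } 1 fun u => by
        rw [one_mul]; exact norm_apply_le _ a

theorem Ea_apply (s : ℤˣ) (a : α) (u : fixP (prj A sg s)) : Ea A sg s a u = (u : PiLp 2 H) a := rfl

open Classical in
/-- the inclusion of a coordinate -/
def sng (a : α) : H a →ₗ[ℂ] PiLp 2 H where
  toFun x := PiLp.single 2 a x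
  map_add' x y := PiLp.single_add 2 a
  map_smul' c x := by
    ext b
    by_cases h : b = a
    · subst h; simp
    · simp [h]

theorem sng_same (a : α) (x : H a) : sng a x a = x := by
  classical
  show PiLp.single 2 a x a = x
  exact PiLp.single_eq_same 2 a x

theorem sng_ne {a b : α} (h : b ≠ a) (x : H a) : sng a x b = 0 := by
  classical
  show PiLp.single 2 a x b = 0
  exact PiLp.single_eq_of_ne 2 h x

theorem norm_sng (a : α) (x : H a) : ‖sng a x‖ ≤ ‖x‖ := by
  classical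
  refine le_of_sq_le_sq ?_ (norm_nonneg _)
  rw [nsq, Finset.sum_eq_single a, sng_same]
  · intro b _ hb; rw [sng_ne hb]; simp
  · intro h; exact absurd (Finset.mem_univ a) h

theorem sum_sng (u : PiLp 2 H) : ∑ a, sng a (u a) = u := by
  classical
  ext b
  have h1 : (∑ a, sng a (u a)) b = ∑ a, (sng a (u a)) b := by
    simp
  rw [h1, Finset.sum_eq_single b, sng_same]
  · intro a _ ha; rw [sng_ne (Ne.symm ha)]
  · intro h; exact absurd (Finset.mem_univ b) h

/-- the inclusion of a coordinate in the vectors of given parity -/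
def Ia (s : ℤˣ) (a : α) : H a →L[ℂ] fixP (prj A sg s) :=
  LinearMap.mkContinuous ((prj_oproj A sg s).cod ∘ₗ sng a) 1 fun u => by
    rw [one_mul]; exact ((prj_oproj A sg s).norm_le _).trans (norm_sng a u)

theorem Ia_apply (s : ℤˣ) (a : α) (x : H a) :
    (Ia A sg s a x : PiLp 2 H) = prj A sg s (sng a x) := rfl

theorem totPar_sng (a : α) (x : H a) :
    totPar A sg (sng a x) = sng a (((sg a : ℤ) : ℂ) • (A a).par x) := by
  ext b
  by_cases h : b = a
  · subst h; rw [totPar_apply, sng_same, sng_same]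
  · rw [totPar_apply, sng_ne h, sng_ne h, map_zero, smul_zero]

theorem totD_sng (a : α) (x : H a) :
    totD A sg (sng a x) = sng a (((sg a : ℤ) : ℂ) • (A a).D x) := by
  ext b
  by_cases h : b = a
  · subst h; rw [totD_apply, sng_same, sng_same]
  · rw [totD_apply, sng_ne h, sng_ne h, map_zero, smul_zero]

theorem Ia_of_pt {s : ℤˣ} {a : α} {x : H a} (hx : x ∈ (A a).pt (s * sg a)) :
    (Ia A sg s a x : PiLp 2 H) = sng a x := by
  rw [Ia_apply, prj_eq_iff, totPar_sng, show (A a).par x = _ from hx, smul_smul, ← map_smul]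
  congr 2
  rw [Units.val_mul, Int.cast_mul, mul_comm (((s : ℤ) : ℂ)), ← mul_assoc]
  exact (congrArg (· * ((s : ℤ) : ℂ)) (uc_mul_self (sg a))).trans (one_mul _)

theorem Ea_mem (s : ℤˣ) (a : α) (u : fixP (prj A sg s)) : Ea A sg s a u ∈ (A a).pt (s * sg a) := by
  have h1 := (prj_eq_iff A sg s _).1 u.2
  have h2 := congrArg (fun v : PiLp 2 H => ((sg a : ℤ) : ℂ) • v a) h1
  simp only [totPar_apply, smul_smul] at h2
  have h3 : ((sg a : ℤ) : ℂ) * ((sg a : ℤ) : ℂ) = 1 := uc_mul_self (sg a)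
  rw [h3, one_smul] at h2
  show (A a).par _ = _
  rw [Ea_apply, h2, PiLp.smul_apply, smul_smul, Units.val_mul, Int.cast_mul, mul_comm]
  rfl

theorem sum_Ia_Ea (s : ℤˣ) (u : fixP (prj A sg s)) : ∑ a, Ia A sg s a (Ea A sg s a u) = u := by
  refine Subtype.ext ?_
  rw [AddSubmonoidClass.coe_finsetSum]
  refine Eq.trans (Finset.sum_congr rfl fun a _ => ?_) (sum_sng (u : PiLp 2 H))
  rw [Ia_of_pt A sg (Ea_mem A sg s a u), Ea_apply]

theorem Ea_Ia_of_pt {s : ℤˣ} {a : α} {x : H a} (hx : x ∈ (A a).pt (s * sg a)) (b : α) :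
    Ea A sg s b (Ia A sg s a x) = sng a x b := by
  rw [Ea_apply, Ia_of_pt A sg hx]

theorem sum_Ia_Ea' (s : ℤˣ) (x : Completion (fixP (prj A sg s))) :
    ∑ a, (Ia A sg s a).completion ((Ea A sg s a).completion x) = x := by
  induction x using Completion.induction_on with
  | hp =>
    refine isClosed_eq ?_ continuous_id
    exact continuous_finsetSum _ fun a _ =>
      (Ia A sg s a).completion.continuous.comp (Ea A sg s a).completion.continuous
  | ih u =>
    simp only [ContinuousLinearMap.completion_apply_coe]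
    rw [← Completion.coe_toComplL (𝕜 := ℂ), ← map_sum, sum_Ia_Ea]


/-- the strong kernel on the vectors of total parity `s` -/
def kerT (s : ℤˣ) : Submodule ℂ (Completion (fixP (prj A sg s))) where
  carrier := {x | ∃ w : ℕ → fixP (prj A sg s),
    Tendsto (fun n => (w n : Completion (fixP (prj A sg s)))) atTop (𝓝 x) ∧
      Tendsto (fun n => totD A sg (w n)) atTop (𝓝 0)}
  zero_mem' := ⟨fun _ => 0, by simp, by simp⟩
  add_mem' := by
    rintro x y ⟨w, h2, h3⟩ ⟨w', h2', h3'⟩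
    refine ⟨fun n => w n + w' n, ?_, ?_⟩
    · simpa only [Completion.coe_add] using h2.add h2'
    · have := h3.add h3'
      rw [add_zero] at this
      refine this.congr fun n => ?_
      rw [← map_add]; rfl
  smul_mem' := by
    rintro c x ⟨w, h2, h3⟩
    refine ⟨fun n => c • w n, ?_, ?_⟩
    · simpa only [Completion.coe_smul] using h2.const_smul c
    · have := h3.const_smul c
      rw [smul_zero] at this
      refine this.congr fun n => ?_
      rw [← map_smul]; rfl

theorem mem_kerT {s : ℤˣ} {x : Completion (fixP (prj A sg s))} : x ∈ kerT A sg s ↔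
    ∃ w : ℕ → fixP (prj A sg s),
    Tendsto (fun n => (w n : Completion (fixP (prj A sg s)))) atTop (𝓝 x) ∧
      Tendsto (fun n => totD A sg (w n)) atTop (𝓝 0) := Iff.rfl

theorem mem_sk {E : Type*} [NormedAddCommGroup E] [InnerProductSpace ℂ E] {B : Ell E} {s : ℤˣ}
    {x : Completion E} : x ∈ B.sk s ↔ ∃ w : ℕ → E, (∀ n, w n ∈ B.pt s) ∧
    Tendsto (fun n => (w n : Completion E)) atTop (𝓝 x) ∧
      Tendsto (fun n => B.D (w n)) atTop (𝓝 0) := Iff.rfl

theorem Ea_kerT {s : ℤˣ} {x : Completion (fixP (prj A sg s))} (hx : x ∈ kerT A sg s) (a : α) :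
    (Ea A sg s a).completion x ∈ (A a).sk (s * sg a) := by
  obtain ⟨w, h1, h2⟩ := hx
  refine ⟨fun n => Ea A sg s a (w n), fun n => Ea_mem A sg s a _, ?_, ?_⟩
  · have h3 := ((Ea A sg s a).completion.continuous.tendsto x).comp h1
    refine h3.congr fun n => ?_
    exact ContinuousLinearMap.completion_apply_coe _ _
  · have h3 := (tendsto_iff.1 h2 a).const_smul ((sg a : ℤ) : ℂ)
    rw [PiLp.zero_apply, smul_zero] at h3
    refine h3.congr fun n => ?_
    rw [totD_apply, smul_smul, show ((sg a : ℤ) : ℂ) * ((sg a : ℤ) : ℂ) = 1 from uc_mul_self (sg a),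
      one_smul]
    rfl

theorem Ia_sk {s : ℤˣ} {a : α} {x : Completion (H a)} (hx : x ∈ (A a).sk (s * sg a)) :
    (Ia A sg s a).completion x ∈ kerT A sg s := by
  obtain ⟨w, h0, h1, h2⟩ := hx
  refine ⟨fun n => Ia A sg s a (w n), ?_, ?_⟩
  · have h3 := ((Ia A sg s a).completion.continuous.tendsto x).comp h1
    refine h3.congr fun n => ?_
    exact ContinuousLinearMap.completion_apply_coe _ _
  · have h3 := (h2.const_smul ((sg a : ℤ) : ℂ)).norm
    rw [smul_zero, norm_zero] at h3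
    refine squeeze_zero_norm (fun n => ?_) h3
    rw [Ia_of_pt A sg (h0 n), totD_sng]
    exact norm_sng _ _

theorem Ea_Ia_sk {s : ℤˣ} {a : α} {x : Completion (H a)} (hx : x ∈ (A a).sk (s * sg a)) :
    (Ea A sg s a).completion ((Ia A sg s a).completion x) = x := by
  obtain ⟨w, h0, h1, h2⟩ := hx
  have h3 := (((Ea A sg s a).completion.continuous.comp
    (Ia A sg s a).completion.continuous).tendsto x).comp h1
  refine tendsto_nhds_unique h3 (h1.congr fun n => ?_)
  show ((w n : H a) : Completion (H a)) =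
    (Ea A sg s a).completion ((Ia A sg s a).completion ((w n : H a) : Completion (H a)))
  rw [ContinuousLinearMap.completion_apply_coe, ContinuousLinearMap.completion_apply_coe,
    Ea_Ia_of_pt A sg (h0 n), sng_same]

theorem Ea_Ia_sk_ne {s : ℤˣ} {a b : α} (hab : b ≠ a) {x : Completion (H a)}
    (hx : x ∈ (A a).sk (s * sg a)) :
    (Ea A sg s b).completion ((Ia A sg s a).completion x) = 0 := by
  obtain ⟨w, h0, h1, h2⟩ := hx
  have h3 := (((Ea A sg s b).completion.continuous.comp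
    (Ia A sg s a).completion.continuous).tendsto x).comp h1
  refine tendsto_nhds_unique h3 (tendsto_const_nhds.congr fun n => ?_)
  show (0 : Completion (H b)) =
    (Ea A sg s b).completion ((Ia A sg s a).completion ((w n : H a) : Completion (H a)))
  rw [ContinuousLinearMap.completion_apply_coe, ContinuousLinearMap.completion_apply_coe,
    Ea_Ia_of_pt A sg (h0 n), sng_ne hab, Completion.coe_zero]

/-- the strong kernel of the sum -/
def kerEquiv (s : ℤˣ) : kerT A sg s ≃ₗ[ℂ] (∀ a, (A a).sk (s * sg a)) where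
  toFun x a := ⟨(Ea A sg s a).completion x, Ea_kerT A sg x.2 a⟩
  map_add' x y := by
    ext a
    exact map_add _ _ _
  map_smul' c x := by
    ext a
    exact map_smul _ _ _
  invFun y := ⟨∑ a, (Ia A sg s a).completion (y a), Submodule.sum_mem _ fun a _ =>
    Ia_sk A sg (y a).2⟩
  left_inv x := Subtype.ext (sum_Ia_Ea' A sg s x)
  right_inv y := by
    funext b
    refine Subtype.ext ?_
    show (Ea A sg s b).completion (∑ a, (Ia A sg s a).completion (y a)) = y b
    rw [map_sum, Finset.sum_eq_single b]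
    · exact Ea_Ia_sk A sg (y b).2
    · intro a _ hab
      exact Ea_Ia_sk_ne A sg (Ne.symm hab) (y a).2
    · intro h; exact absurd (Finset.mem_univ b) h

theorem tb_tot (s : ℤˣ) :
    TotallyBounded {u : PiLp 2 H | prj A sg s u = u ∧ ‖u‖ ≤ 1 ∧ ‖totD A sg u‖ ≤ 1} := by
  refine totallyBounded_of (fun a => (A a).tb) ?_
  rintro u ⟨-, h1, h2⟩ a
  refine ⟨(norm_apply_le u a).trans h1, ?_⟩
  have h3 := (norm_apply_le _ a).trans h2
  rwa [totD_apply, norm_smul_uc] at h3

/-- lower bound for `D + t k` -/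
theorem low {E : Type*} [NormedAddCommGroup E] [InnerProductSpace ℂ E] {D k : E →ₗ[ℂ] E}
    (hD : ∀ u v, inner ℂ (D u) v = inner ℂ u (D v)) (hk : ∀ u v, inner ℂ (k u) v = inner ℂ u (k v))
    {c : ℝ} (hc : 0 < c) (hlow : ∀ u, c * ‖u‖ ≤ ‖k u‖) {C : ℝ}
    (hanti : ∀ u, ‖D (k u) + k (D u)‖ ≤ C * ‖u‖) :
    ∃ t : ℝ, ∀ u, 1 * ‖u‖ ≤ ‖D u + ((t : ℂ) • k) u‖ := by
  obtain ⟨t, ht1, ht2⟩ : ∃ t : ℝ, 1 ≤ t ∧ |C| + 1 ≤ t * c ^ 2 := by
    refine ⟨1 + (|C| + 1) / c ^ 2, by
      have : 0 ≤ (|C| + 1) / c ^ 2 := by positivity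
      linarith, ?_⟩
    rw [add_mul, div_mul_cancel₀ _ (by positivity)]
    nlinarith [sq_nonneg c]
  refine ⟨t, fun u => ?_⟩
  rw [one_mul]
  refine le_of_sq_le_sq ?_ (norm_nonneg _)
  have h1 : ‖D u + ((t : ℂ) • k) u‖ ^ 2 =
      ‖D u‖ ^ 2 + t * (RCLike.re (inner ℂ u (D (k u) + k (D u))) : ℝ) + t ^ 2 * ‖k u‖ ^ 2 := by
    rw [LinearMap.smul_apply, norm_add_sq (𝕜 := ℂ), norm_smul, mul_pow, inner_smul_right,
      Complex.norm_real, Real.norm_eq_abs, sq_abs, inner_add_right, ← hD u (k u), ← hk u (D u)]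
    have h2 : (inner ℂ (k u) (D u) : ℂ) = (starRingEnd ℂ) (inner ℂ (D u) (k u)) :=
      (inner_conj_symm _ _).symm
    rw [h2]
    simp only [RCLike.re_to_complex, Complex.add_re, Complex.conj_re, Complex.re_ofReal_mul]
    ring
  have h3 : -(|C| * ‖u‖ ^ 2) ≤ (RCLike.re (inner ℂ u (D (k u) + k (D u))) : ℝ) := by
    have h4 : ‖(inner ℂ u (D (k u) + k (D u)) : ℂ)‖ ≤ |C| * ‖u‖ ^ 2 := by
      calc ‖(inner ℂ u (D (k u) + k (D u)) : ℂ)‖ ≤ ‖u‖ * ‖D (k u) + k (D u)‖ :=
            norm_inner_le_norm _ _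
        _ ≤ ‖u‖ * (|C| * ‖u‖) := by
            gcongr
            exact (hanti u).trans (by gcongr; exact le_abs_self C)
        _ = |C| * ‖u‖ ^ 2 := by ring
    have h5 := (RCLike.abs_re_le_norm (inner ℂ u (D (k u) + k (D u)) : ℂ)).trans h4
    linarith [neg_abs_le (RCLike.re (inner ℂ u (D (k u) + k (D u)) : ℂ) : ℝ)]
  have h6 : c ^ 2 * ‖u‖ ^ 2 ≤ ‖k u‖ ^ 2 := by
    rw [← mul_pow]
    exact pow_le_pow_left₀ (by positivity) (hlow u) 2
  rw [h1]
  have h7 : t * (-(|C| * ‖u‖ ^ 2)) ≤ t * (RCLike.re (inner ℂ u (D (k u) + k (D u))) : ℝ) :=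
    mul_le_mul_of_nonneg_left h3 (by linarith)
  have h8 : t ^ 2 * (c ^ 2 * ‖u‖ ^ 2) ≤ t ^ 2 * ‖k u‖ ^ 2 :=
    mul_le_mul_of_nonneg_left h6 (by positivity)
  have h9 : 0 ≤ ‖u‖ ^ 2 * (t * (t * c ^ 2 - (|C| + 1)) + (t - 1)) := by
    apply mul_nonneg (by positivity)
    have : 0 ≤ t * (t * c ^ 2 - (|C| + 1)) := mul_nonneg (by linarith) (by linarith)
    linarith
  nlinarith [sq_nonneg ‖D u‖]

/-- **The index theorem for direct sums.** -/
theorem index_total (k : PiLp 2 H →ₗ[ℂ] PiLp 2 H) (hk : ∃ C : ℝ, ∀ u, ‖k u‖ ≤ C * ‖u‖)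
    (hsymm : ∀ u v, inner ℂ (k u) v = inner ℂ u (k v))
    (hpar : ∀ u, k (totPar A sg u) = -totPar A sg (k u)) {c : ℝ} (hc : 0 < c)
    (hlow : ∀ u, c * ‖u‖ ≤ ‖k u‖) {C : ℝ}
    (hanti : ∀ u, ‖totD A sg (k u) + k (totD A sg u)‖ ≤ C * ‖u‖) :
    (∀ a s, FiniteDimensional ℂ ((A a).sk s)) ∧ ∑ a, (sg a : ℤ) * (A a).P = 0 := by
  obtain ⟨t, ht⟩ := low (totD_symm A sg) hsymm hc hlow hanti
  have hkP : ∀ u, ((t : ℂ) • k) (prj A sg 1 u) = prj A sg (-1) (((t : ℂ) • k) u) := by
    intro u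
    rw [LinearMap.smul_apply, LinearMap.smul_apply, map_smul, prj_apply, prj_apply, map_smul,
      map_add, map_smul, hpar, uc_neg, smul_neg, neg_smul]
  obtain ⟨N₁, N₂, e1, e2, f1, f2, f3⟩ := index_strongP (D := totD A sg) (D' := totD A sg)
    (totD_symm A sg) (smoothing_lmap fun a => (A a).smoothing)
    (smoothing_lmap fun a => (A a).smoothing) (totComm A sg) (prj_oproj A sg 1)
    (prj_oproj A sg (-1)) (totD_prj A sg 1) (tb_tot A sg 1) ((t : ℂ) • k) ((t : ℂ) • k) (by
      obtain ⟨C', hC'⟩ := hk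
      refine ⟨|t| * C', fun u => ?_⟩
      rw [LinearMap.smul_apply, norm_smul, Complex.norm_real, Real.norm_eq_abs, mul_assoc]
      gcongr
      exact hC' u) (by
      intro u v
      rw [LinearMap.smul_apply, LinearMap.smul_apply, inner_smul_left, inner_smul_right, hsymm,
        Complex.conj_ofReal]) hkP one_pos (fun u _ => ht u) (fun u _ => ht u)
  have g1 : N₁ = kerT A sg 1 := by
    ext x; rw [e1, mem_kerT]
  have g2 : N₂ = kerT A sg (-1) := by
    ext x; rw [e2, mem_kerT]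
  subst g1 g2
  have k1 : FiniteDimensional ℂ (∀ a, (A a).sk (1 * sg a)) := Module.Finite.equiv (kerEquiv A sg 1)
  have k2 : FiniteDimensional ℂ (∀ a, (A a).sk (-1 * sg a)) :=
    Module.Finite.equiv (kerEquiv A sg (-1))
  have k3 : ∀ a, FiniteDimensional ℂ ((A a).sk (1 * sg a)) := fun a =>
    Module.Finite.of_surjective (LinearMap.proj (R := ℂ) (φ := fun a => (A a).sk (1 * sg a)) a)
      (LinearMap.proj_surjective a)
  have k4 : ∀ a, FiniteDimensional ℂ ((A a).sk (-1 * sg a)) := fun a =>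
    Module.Finite.of_surjective (LinearMap.proj (R := ℂ) (φ := fun a => (A a).sk (-1 * sg a)) a)
      (LinearMap.proj_surjective a)
  rw [(kerEquiv A sg 1).finrank_eq, (kerEquiv A sg (-1)).finrank_eq, Module.finrank_pi_fintype,
    Module.finrank_pi_fintype] at f3
  refine ⟨fun a s => ?_, ?_⟩
  · have h1 := k3 a
    have h2 := k4 a
    rcases Int.units_eq_one_or s with rfl | rfl <;> rcases Int.units_eq_one_or (sg a) with h | h <;>
      rw [h] at h1 h2
    · exact h1
    · exact h2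
    · exact h2
    · exact h1
  · have h1 : ∀ a, (sg a : ℤ) * (A a).P =
        (finrank ℂ ((A a).sk (1 * sg a)) : ℤ) - (finrank ℂ ((A a).sk (-1 * sg a)) : ℤ) := by
      intro a
      rcases Int.units_eq_one_or (sg a) with h | h <;> rw [h]
      · rw [mul_one, mul_one, Units.val_one, one_mul]; rfl
      · rw [one_mul, neg_mul_neg, one_mul, Units.val_neg, Units.val_one, neg_one_mul, Ell.P,
          neg_sub]
    rw [Finset.sum_congr rfl fun a _ => h1 a, Finset.sum_sub_distrib, ← Nat.cast_sum,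
      ← Nat.cast_sum, f3, sub_self]

end Vale.Agent.P301.H103
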